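import Vale.Agent.P240.R2.H584.Sol

/-!
Products in a group algebra: the sum over all values of commuting parameters with given product.
-/

set_option autoImplicit false
set_option linter.all false

namespace Vale.Agent.P240.R2.H315

open Vale.Agent.P240.R2.H584
open scoped Classical

universe u v w

noncomputable section

section ring
variable {R : Type u} [Ring R]

/-- product in the reverse order -/
def rp : List R → R
  | [] => 1
  | x :: l => rp l * x

lemma rp_nil : rp ([] : List R) = 1 := rfl

lemma rp_cons (x : R) (l : List R) : rp (x :: l) = rp l * x := rfl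

lemma rp_zero {l : List R} (h : (0 : R) ∈ l) : rp l = 0 := by
  induction l with
  | nil => simp at h
  | cons x l ih =>
    rw [rp_cons]
    rcases List.mem_cons.1 h with h | h
    · rw [← h, mul_zero]
    · rw [ih h, zero_mul]

/-- elements `z x` with `z` central, `x` one of two anticommuting elements with square zero -/
def Cen2 (X : Bool → R) (y : R) : Prop := ∃ (z : R) (b : Bool), (∀ r : R, z * r = r * z) ∧ y = z * X b

lemma three_zero {X : Bool → R} (hX : ∀ b b', X b * X b' + X b' * X b = 0)
    (h2 : ∀ b, X b * X b = 0) (a b c : Bool) : X a * X b * X c = 0 := by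
  have h3 : ∀ a b : Bool, X a * X b * X a = 0 := by
    intro a b
    have h4 : X a * X b = - (X b * X a) := eq_neg_of_add_eq_zero_left (hX a b)
    rw [h4, neg_mul, mul_assoc, h2, mul_zero, neg_zero]
  cases a <;> cases b <;> cases c <;>
    first
    | exact h3 _ _
    | rw [h2, zero_mul]
    | rw [mul_assoc, h2, mul_zero]

lemma cen_three {X : Bool → R} (hX : ∀ b b', X b * X b' + X b' * X b = 0)
    (h2 : ∀ b, X b * X b = 0) {x y z : R} (hx : Cen2 X x) (hy : Cen2 X y) (hz : Cen2 X z) :
    x * y * z = 0 := by
  obtain ⟨a, i, ha, rfl⟩ := hx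
  obtain ⟨b, j, hb, rfl⟩ := hy
  obtain ⟨c, k, hc, rfl⟩ := hz
  have h3 := three_zero hX h2 i j k
  calc a * X i * (b * X j) * (c * X k) = a * (X i * b) * X j * (c * X k) := by
        simp only [mul_assoc]
    _ = a * (b * X i) * X j * (c * X k) := by rw [hb]
    _ = a * b * (X i * X j * c) * X k := by simp only [mul_assoc]
    _ = a * b * (c * (X i * X j)) * X k := by rw [← hc (X i * X j)]
    _ = a * b * c * (X i * X j * X k) := by simp only [mul_assoc]
    _ = 0 := by rw [h3, mul_zero]

lemma rp_cen {X : Bool → R} (hX : ∀ b b', X b * X b' + X b' * X b = 0)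
    (h2 : ∀ b, X b * X b = 0) {l : List R} (hl : 3 ≤ l.length) (h : ∀ y ∈ l, Cen2 X y ∨ y = 0) :
    rp l = 0 := by
  by_cases h0 : (0 : R) ∈ l
  · exact rp_zero h0
  obtain ⟨x, l, rfl⟩ : ∃ x l', l = x :: l' := by
    cases l with
    | nil => simp at hl
    | cons x l => exact ⟨x, l, rfl⟩
  obtain ⟨y, l, rfl⟩ : ∃ x l', l = x :: l' := by
    cases l with
    | nil => simp at hl
    | cons x l => exact ⟨x, l, rfl⟩
  obtain ⟨z, l, rfl⟩ : ∃ x l', l = x :: l' := by
    cases l with
    | nil => simp at hl
    | cons x l => exact ⟨x, l, rfl⟩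
  have h1 : ∀ t ∈ x :: y :: z :: l, Cen2 X t := by
    intro t ht
    rcases h t ht with h | h
    · exact h
    · subst h; exact absurd ht h0
  rw [rp_cons, rp_cons, rp_cons, mul_assoc, mul_assoc, ← mul_assoc z,
    cen_three hX h2 (h1 z (by simp)) (h1 y (by simp)) (h1 x (by simp)), mul_zero]

end ring

section alg
variable {R : Type u} [Ring R] {A : Type v} [CommGroup A] [Fintype A]

/-- the generating element -/
def GX (g : A → R) : MonoidAlgebra R A := ∑ a, MonoidAlgebra.single a (g a)

lemma GX_zero : GX (fun _ : A => (0 : R)) = 0 := by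
  unfold GX
  simp

lemma rp_GX {n : ℕ} (G : Fin n → A → R) :
    rp (List.ofFn fun i => GX (G i)) =
      ∑ c : Fin n → A, MonoidAlgebra.single (∏ i, c i) (rp (List.ofFn fun i => G i (c i))) := by
  induction n with
  | zero =>
    simp only [List.ofFn_zero, rp_nil, Finset.univ_unique, Finset.sum_singleton]
    simp [MonoidAlgebra.one_def]
  | succ n ih =>
    rw [List.ofFn_succ, rp_cons, ih, ← (Fin.consEquiv fun _ => A).sum_comp, Fintype.sum_prod_type,
      Finset.sum_comm, Finset.sum_mul]
    refine Finset.sum_congr rfl fun c _ => ?_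
    rw [GX, Finset.mul_sum]
    refine Finset.sum_congr rfl fun a _ => ?_
    rw [MonoidAlgebra.single_mul_single]
    congr 1
    · rw [Fin.prod_univ_succ]
      simp [Fin.consEquiv, mul_comm]
    · rw [List.ofFn_succ, rp_cons]
      simp [Fin.consEquiv]

/-- the sum over the parameters whose product satisfies a condition -/
lemma sum_pred {n : ℕ} {G : Fin n → A → R} (h : rp (List.ofFn fun i => GX (G i)) = 0)
    (p : A → Prop) :
    ∑ c ∈ (Finset.univ : Finset (Fin n → A)).filter (fun c => p (∏ i, c i)),
      rp (List.ofFn fun i => G i (c i)) = 0 := by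
  rw [rp_GX] at h
  have h1 : ∀ a : A, ∑ c : Fin n → A, (if ∏ i, c i = a then rp (List.ofFn fun i => G i (c i)) else 0)
      = 0 := by
    intro a
    have h2 := congrArg (fun x : MonoidAlgebra R A => x.coeff a) h
    simp only [MonoidAlgebra.coeff_sum, MonoidAlgebra.coeff_single, Finsupp.finset_sum_apply,
      Finsupp.single_apply, MonoidAlgebra.coeff_zero, Finsupp.coe_zero, Pi.zero_apply] at h2
    exact h2
  rw [Finset.sum_filter]
  have h3 : ∀ c : Fin n → A, (if p (∏ i, c i) then rp (List.ofFn fun i => G i (c i)) else 0) =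
      ∑ a : A, if p a then (if ∏ i, c i = a then rp (List.ofFn fun i => G i (c i)) else 0)
        else 0 := by
    intro c
    rw [Finset.sum_eq_single (∏ i, c i)]
    · simp
    · intro b _ hb
      split_ifs with h4 h5
      · exact absurd h5.symm hb
      · rfl
      · rfl
    · intro h; exact absurd (Finset.mem_univ _) h
  rw [Finset.sum_congr rfl fun c _ => h3 c, Finset.sum_comm]
  refine Finset.sum_eq_zero fun a _ => ?_
  split_ifs with h4
  · exact h1 a
  · exact Finset.sum_const_zero

/-- a shift of the parameter -/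
lemma GX_shift (g : A → R) (h : A) :
    GX (fun a => g (a * h)) = MonoidAlgebra.single h⁻¹ 1 * GX g := by
  rw [GX, GX, Finset.mul_sum, ← Equiv.sum_comp (Equiv.mulRight h⁻¹)]
  refine Finset.sum_congr rfl fun a _ => ?_
  rw [MonoidAlgebra.single_mul_single, one_mul]
  simp [mul_comm]

lemma single_central (h : A) (r : MonoidAlgebra R A) :
    MonoidAlgebra.single h (1 : R) * r = r * MonoidAlgebra.single h (1 : R) := by
  induction r using MonoidAlgebra.induction_linear with
  | zero => simp
  | add f g hf hg => rw [mul_add, add_mul, hf, hg]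
  | single a b => simp [MonoidAlgebra.single_mul_single, mul_comm]

/-- the generating elements anticommute -/
lemma GX_anti [Module ℚ R] {T : Bool → A → R}
    (hT : ∀ b b' x y, (T b x * T b' y + T b' y * T b x) + (T b y * T b' x + T b' x * T b y) = 0)
    (b b' : Bool) : GX (T b) * GX (T b') + GX (T b') * GX (T b) = 0 := by
  let f : A → A → R := fun x y => T b x * T b' y + T b' y * T b x
  have h1 : GX (T b) * GX (T b') + GX (T b') * GX (T b) =
      ∑ x, ∑ y, MonoidAlgebra.single (x * y) (f x y) := by
    have e1 : GX (T b) * GX (T b') = ∑ x, ∑ y, MonoidAlgebra.single (x * y) (T b x * T b' y) := by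
      rw [GX, GX, Finset.sum_mul_sum]
      exact Finset.sum_congr rfl fun x _ => Finset.sum_congr rfl fun y _ =>
        MonoidAlgebra.single_mul_single _ _ _ _
    have e2 : GX (T b') * GX (T b) = ∑ x, ∑ y, MonoidAlgebra.single (x * y) (T b' y * T b x) := by
      rw [GX, GX, Finset.sum_mul_sum, Finset.sum_comm]
      refine Finset.sum_congr rfl fun x _ => Finset.sum_congr rfl fun y _ => ?_
      rw [MonoidAlgebra.single_mul_single, mul_comm y x]
    rw [e1, e2, ← Finset.sum_add_distrib]
    refine Finset.sum_congr rfl fun x _ => ?_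
    rw [← Finset.sum_add_distrib]
    refine Finset.sum_congr rfl fun y _ => ?_
    rw [← MonoidAlgebra.single_add]
  have h2 : ∑ x, ∑ y, MonoidAlgebra.single (x * y) (f x y) +
      ∑ x, ∑ y, MonoidAlgebra.single (x * y) (f x y) = (0 : MonoidAlgebra R A) := by
    conv_lhs =>
      arg 2
      rw [Finset.sum_comm]
    rw [← Finset.sum_add_distrib]
    refine Finset.sum_eq_zero fun x _ => ?_
    rw [← Finset.sum_add_distrib]
    refine Finset.sum_eq_zero fun y _ => ?_
    rw [mul_comm y x, ← MonoidAlgebra.single_add]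
    have h3 : f x y + f y x = 0 := hT b b' x y
    rw [h3, MonoidAlgebra.single_zero]
  rw [h1]
  have h3 : (2 : ℚ) • ∑ x, ∑ y, MonoidAlgebra.single (x * y) (f x y) = (0 : MonoidAlgebra R A) := by
    rw [two_smul]; exact h2
  exact (smul_eq_zero.1 h3).resolve_left two_ne_zero

/-- **the sum over the parameters** -/
theorem abs_sum [Module ℚ R] {T : Bool → A → R}
    (hT : ∀ b b' x y, (T b x * T b' y + T b' y * T b x) + (T b y * T b' x + T b' x * T b y) = 0)
    {n : ℕ} (hn : 3 ≤ n) {G : Fin n → A → R}
    (hG : ∀ i, (∃ b h, ∀ c, G i c = T b (c * h)) ∨ ∀ c, G i c = 0) (p : A → Prop) :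
    ∑ c ∈ (Finset.univ : Finset (Fin n → A)).filter (fun c => p (∏ i, c i)),
      rp (List.ofFn fun i => G i (c i)) = 0 := by
  refine sum_pred (rp_cen (X := fun b => GX (T b)) (GX_anti hT) (fun b => ?_) ?_ ?_) p
  · have h1 := GX_anti hT b b
    have h3 : (2 : ℚ) • (GX (T b) * GX (T b)) = (0 : MonoidAlgebra R A) := by
      rw [two_smul]; exact h1
    exact (smul_eq_zero.1 h3).resolve_left two_ne_zero
  · rw [List.length_ofFn]; exact hn
  · intro y hy
    obtain ⟨i, rfl⟩ := (List.mem_ofFn' _ _).1 hy
    rcases hG i with ⟨b, h, hc⟩ | h0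
    · left
      refine ⟨MonoidAlgebra.single h⁻¹ 1, b, fun r => single_central _ r, ?_⟩
      have h1 : G i = fun a => T b (a * h) := funext hc
      show GX (G i) = MonoidAlgebra.single h⁻¹ 1 * GX (T b)
      rw [h1, GX_shift]
    · right
      have h1 : G i = fun _ => 0 := funext h0
      show GX (G i) = 0
      rw [h1, GX_zero]

end alg

end

end Vale.Agent.P240.R2.H315
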