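import Vale.Agent.P240.R2.H315.Defs
import Vale.Agent.P240.R2.H315.Alg

/-!
`PSU_n(5)`, `n` even, `p = 2`: the sum of the solutions over all real forms is zero.
-/

set_option autoImplicit false
set_option linter.all false

namespace Vale.Agent.P240.R2.H315

open Matrix Vale.Agent.P240.R2.AS Vale.Agent.P240.R2.H38 Vale.Agent.P240.R2.H584
open scoped Classical

universe u v

noncomputable section

section letters
variable {V : Type v} [AddCommGroup V] [Module ℚ V]

/-- the relations in the form of an antisymmetry -/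
lemma lc_rel {M : Lt → Module.End ℚ V} (hM : Rep M) (b b' : Bool) (j k : Fin 3) :
    (M (lc b j) * M (lc b' k) + M (lc b' k) * M (lc b j)) +
      (M (lc b k) * M (lc b' j) + M (lc b' j) * M (lc b k)) = 0 := by
  have hz : ∀ {x y : Lt}, AC (M x) (M y) = 0 → AC (M y) (M x) = 0 := fun h => by
    rw [AC_comm]; exact h
  have e : ∀ x y, M x * M y + M y * M x = AC (M x) (M y) := fun _ _ => rfl
  have z01 := hM.z01 false
  have z01' := hM.z01 true
  have z12 := hM.z12 false
  have z12' := hM.z12 true
  have s0 := hM.same 0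
  have s1 := hM.same 1
  have s2 := hM.same 2
  have z02 := hM.z02 false
  have z02' := hM.z02 true
  simp only [Bool.not_false, Bool.not_true] at z01 z01' z12 z12'
  have a01 : AC (M (true, 0)) (M (true, 1)) = - AC (M (false, 0)) (M (false, 1)) :=
    eq_neg_of_add_eq_zero_right hM.s01
  have a12 : AC (M (true, 1)) (M (true, 2)) = - AC (M (false, 1)) (M (false, 2)) :=
    eq_neg_of_add_eq_zero_right hM.s12
  have a02 : AC (M (true, 0)) (M (false, 2)) = - AC (M (false, 0)) (M (true, 2)) :=
    eq_neg_of_add_eq_zero_right hM.s02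
  have b01 : AC (M (false, 1)) (M (false, 0)) = AC (M (false, 0)) (M (false, 1)) := AC_comm _ _
  have b12 : AC (M (false, 2)) (M (false, 1)) = AC (M (false, 1)) (M (false, 2)) := AC_comm _ _
  have b02 : AC (M (true, 2)) (M (false, 0)) = AC (M (false, 0)) (M (true, 2)) := AC_comm _ _
  have c01 : AC (M (true, 1)) (M (true, 0)) = - AC (M (false, 0)) (M (false, 1)) := by
    rw [AC_comm, a01]
  have c12 : AC (M (true, 2)) (M (true, 1)) = - AC (M (false, 1)) (M (false, 2)) := by
    rw [AC_comm, a12]
  have c02 : AC (M (false, 2)) (M (true, 0)) = - AC (M (false, 0)) (M (true, 2)) := by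
    rw [AC_comm, a02]
  rw [e, e]
  cases b <;> cases b' <;> fin_cases j <;> fin_cases k <;>
    simp [lc, hM.sq, z01, z01', z12, z12', s0, s1, s2, z02, z02', hz z01, hz z01', hz z12,
      hz z12', hz s0, hz s1, hz s2, hz z02, hz z02', a01, a12, a02, b01, b12, b02, c01, c12, c02]

/-- the operators of the parameters -/
def TT (K : Type u) [Field K] [StarRing K] (M : Lt → Module.End ℚ V) (ρ : K) (b : Bool)
    (c : unitary K) : Module.End ℚ V :=
  (col ρ (c : K)).elim 0 fun j => M (lc b j)

lemma TT_rel {K : Type u} [Field K] [StarRing K] {M : Lt → Module.End ℚ V} (hM : Rep M) (ρ : K)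
    (b b' : Bool) (x y : unitary K) :
    (TT K M ρ b x * TT K M ρ b' y + TT K M ρ b' y * TT K M ρ b x) +
      (TT K M ρ b y * TT K M ρ b' x + TT K M ρ b' x * TT K M ρ b y) = 0 := by
  unfold TT
  rcases col ρ (x : K) with _ | j
  · simp
  rcases col ρ (y : K) with _ | k
  · simp
  exact lc_rel hM b b' j k

end letters

section forms
variable {K : Type u} [Field K] [Fintype K] [StarRing K] {n : ℕ}

omit [Fintype K] in
lemma mstar_mul (A B : Matrix (Fin n) (Fin n) K) : (A * B).map star = A.map star * B.map star := by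
  ext i j
  simp [mul_apply, star_sum, mul_comm]

omit [Fintype K] in
lemma mstar_tr (A : Matrix (Fin n) (Fin n) K) : Aᵀ.map star = star A := rfl

omit [Fintype K] in
lemma star_tr (A : Matrix (Fin n) (Fin n) K) : star Aᵀ = A.map star := rfl

omit [Fintype K] in
lemma mstar_star (A : Matrix (Fin n) (Fin n) K) : (star A).map star = Aᵀ := by
  ext i j
  simp [star_apply]

omit [Fintype K] in
lemma mstar_mstar (A : Matrix (Fin n) (Fin n) K) : (A.map star).map star = A := by
  ext i j
  simp

omit [Fintype K] in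
lemma mstar_one : (1 : Matrix (Fin n) (Fin n) K).map star = 1 := by
  rw [Matrix.map_one _ (star_zero K) (star_one K)]

omit [Fintype K] in
lemma tr_bar (u : GU K n) : u.1ᵀ * u.1.map star = 1 := by
  have h := congrArg (fun A => A.map star) (star_gu u)
  simp only [mstar_mul, mstar_star, mstar_one] at h
  exact h

omit [Fintype K] in
lemma bar_tr (u : GU K n) : u.1.map star * u.1ᵀ = 1 := by
  have h := congrArg (fun A => A.map star) (gu_star u)
  simp only [mstar_mul, mstar_star, mstar_one] at h
  exact h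

omit [Fintype K] in
lemma diag_star (c : Fin n → unitary K) :
    diagonal (fun i => (c i : K)) * diagonal (fun i => star (c i : K)) = 1 := by
  rw [diagonal_mul_diagonal, ← diagonal_one]
  congr 1
  funext i
  exact Unitary.mul_star_self_of_mem (c i).2

omit [Fintype K] in
lemma sc_aux (u : GU K n) (c : Fin n → unitary K) :
    u.1 * diagonal (fun i => (c i : K)) * u.1ᵀ ∈ unitaryGroup (Fin n) K := by
  rw [mem_unitaryGroup_iff, star_mul, star_mul, star_tr]
  have h1 : star (diagonal (fun i => (c i : K))) = diagonal (fun i => star (c i : K)) := by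
    rw [star_eq_conjTranspose, diagonal_conjTranspose]
    rfl
  calc u.1 * diagonal (fun i => (c i : K)) * u.1ᵀ *
        (u.1.map star * (star (diagonal fun i => (c i : K)) * star u.1))
      = u.1 * diagonal (fun i => (c i : K)) * (u.1ᵀ * u.1.map star) *
        star (diagonal fun i => (c i : K)) * star u.1 := by simp only [mul_assoc]
    _ = u.1 * (diagonal (fun i => (c i : K)) * diagonal (fun i => star (c i : K))) * star u.1 := by
        rw [tr_bar, mul_one, h1]; simp only [mul_assoc]
    _ = 1 := by rw [diag_star, mul_one, gu_star]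

/-- the form with parameters `c` in the frame `u` -/
def sc (u : GU K n) (c : Fin n → unitary K) : GU K n :=
  ⟨u.1 * diagonal (fun i => (c i : K)) * u.1ᵀ, sc_aux u c⟩

omit [Fintype K] in
lemma sc_coe (u : GU K n) (c : Fin n → unitary K) :
    (sc u c).1 = u.1 * diagonal (fun i => (c i : K)) * u.1ᵀ := rfl

omit [Fintype K] in
lemma sc_det (u : GU K n) (c : Fin n → unitary K) :
    (sc u c).1.det = u.1.det * ((∏ i, c i : unitary K) : K) * u.1.det := by
  rw [sc_coe, det_mul, det_mul, det_diagonal, det_transpose]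
  congr 2
  exact (map_prod (unitary K).subtype c Finset.univ).symm

omit [Fintype K] in
lemma diag_bar (c : Fin n → K) : (diagonal c).map star = diagonal (fun i => star (c i)) := by
  rw [diagonal_map (star_zero K)]

omit [Fintype K] in
lemma sc_form (u : GU K n) (c : Fin n → unitary K) : RForm (sc u c).1 := by
  unfold RForm
  rw [sc_coe, mstar_mul, mstar_mul, mstar_tr, diag_bar]
  calc u.1 * diagonal (fun i => (c i : K)) * u.1ᵀ *
        (u.1.map star * diagonal (fun i => star (c i : K)) * star u.1)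
      = u.1 * diagonal (fun i => (c i : K)) * (u.1ᵀ * u.1.map star) *
        diagonal (fun i => star (c i : K)) * star u.1 := by simp only [mul_assoc]
    _ = u.1 * (diagonal (fun i => (c i : K)) * diagonal (fun i => star (c i : K))) * star u.1 := by
        rw [tr_bar, mul_one]; simp only [mul_assoc]
    _ = 1 := by rw [diag_star, mul_one, gu_star]

omit [Fintype K] in
lemma E1_bar (i : Fin n) : (E1 i : Ln K n).1.map star = (E1 i : Ln K n).1 := by
  rw [E1_coe, diag_bar]
  congr 1
  funext k
  split_ifs <;> simp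

omit [Fintype K] in
lemma star_diag (c : Fin n → K) : star (diagonal c) = diagonal (fun i => star (c i)) := by
  rw [star_eq_conjTranspose, diagonal_conjTranspose]
  rfl

omit [Fintype K] in
/-- the conjugation in coordinates -/
lemma rl_iff (u : GU K n) (D : Matrix (Fin n) (Fin n) K) (i : Fin n) :
    rl (u.1 * D * u.1ᵀ) (lnU u (E1 i)) ↔ D * (E1 i : Ln K n).1 * star D = (E1 i : Ln K n).1 := by
  unfold rl
  rw [lnU_coe, mstar_mul, mstar_mul, E1_bar, mstar_star, star_mul, star_mul, star_tr]
  have h1 : u.1 * D * u.1ᵀ * (u.1.map star * (E1 i : Ln K n).1 * u.1ᵀ) *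
      (u.1.map star * (star D * star u.1)) =
      u.1 * (D * (E1 i : Ln K n).1 * star D) * star u.1 := by
    calc _ = u.1 * D * (u.1ᵀ * u.1.map star) * (E1 i : Ln K n).1 * (u.1ᵀ * u.1.map star) *
          (star D * star u.1) := by simp only [mul_assoc]
      _ = _ := by rw [tr_bar, mul_one, mul_one]; simp only [mul_assoc]
  rw [h1]
  exact ⟨fun h => conj_inj u h, fun h => by rw [h]⟩

omit [Fintype K] in
lemma sc_rl (u : GU K n) (c : Fin n → unitary K) (i : Fin n) : rl (sc u c).1 (lnU u (E1 i)) := by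
  rw [sc_coe, rl_iff, star_diag, E1_coe, diagonal_mul_diagonal, diagonal_mul_diagonal]
  congr 1
  funext k
  by_cases h : k = i
  · rw [if_pos h, mul_one]
    exact Unitary.mul_star_self_of_mem (c k).2
  · rw [if_neg h, mul_zero, zero_mul]

omit [Fintype K] in
/-- every form that fixes the lines of the frame -/
lemma exists_sc (u s : GU K n) (h : ∀ i, rl s.1 (lnU u (E1 i))) : ∃ c, s = sc u c := by
  set D : Matrix (Fin n) (Fin n) K := star u.1 * s.1 * u.1.map star with hD
  have hs : s.1 = u.1 * D * u.1ᵀ := by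
    rw [hD]
    calc s.1 = (u.1 * star u.1) * s.1 * (u.1.map star * u.1ᵀ) := by
          rw [gu_star, bar_tr, one_mul, mul_one]
      _ = _ := by simp only [mul_assoc]
  have hDD : D * star D = 1 := by
    rw [hD, star_mul, star_mul, star_star]
    have h1 : star (u.1.map star) = u.1ᵀ := mstar_star u.1
    rw [h1]
    calc star u.1 * s.1 * u.1.map star * (u.1ᵀ * (star s.1 * u.1))
        = star u.1 * (s.1 * (u.1.map star * u.1ᵀ) * star s.1) * u.1 := by simp only [mul_assoc]
      _ = 1 := by rw [bar_tr, mul_one, gu_star, mul_one, star_gu]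
  have hDD' : star D * D = 1 := mul_eq_one_comm.1 hDD
  have hE : ∀ i, D * (E1 i : Ln K n).1 = (E1 i : Ln K n).1 * D := by
    intro i
    have h1 := h i
    rw [hs, rl_iff] at h1
    calc D * (E1 i : Ln K n).1 = D * (E1 i : Ln K n).1 * (star D * D) := by rw [hDD', mul_one]
      _ = (D * (E1 i : Ln K n).1 * star D) * D := by simp only [mul_assoc]
      _ = _ := by rw [h1]
  have hd : D = diagonal (fun i => D i i) := by
    ext a b
    by_cases hab : a = b
    · subst hab; rw [diagonal_apply_eq]
    · rw [diagonal_apply_ne _ hab]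
      have h1 := congrFun (congrFun (hE b) a) b
      rw [E1_coe, mul_diagonal, diagonal_mul, if_pos rfl, if_neg hab, mul_one, zero_mul] at h1
      exact h1
  have hu : ∀ i, D i i ∈ unitary K := by
    intro i
    have h1 : D i i * star (D i i) = 1 := by
      have h2 := hDD
      rw [hd, star_diag, diagonal_mul_diagonal, ← diagonal_one] at h2
      exact congrFun (diagonal_injective h2) i
    rw [Unitary.mem_iff]
    exact ⟨by rw [mul_comm]; exact h1, h1⟩
  refine ⟨fun i => ⟨D i i, hu i⟩, ?_⟩
  apply Subtype.ext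
  rw [sc_coe, hs]
  congr 2

omit [Fintype K] in
lemma sc_inj (u : GU K n) {c c' : Fin n → unitary K} (h : sc u c = sc u c') : c = c' := by
  have h1 : u.1 * diagonal (fun i => (c i : K)) * u.1ᵀ = u.1 * diagonal (fun i => (c' i : K)) * u.1ᵀ :=
    congrArg Subtype.val h
  have h2 : ∀ D : Matrix (Fin n) (Fin n) K, star u.1 * (u.1 * D * u.1ᵀ) * u.1.map star = D := by
    intro D
    calc _ = (star u.1 * u.1) * D * (u.1ᵀ * u.1.map star) := by simp only [mul_assoc]
      _ = D := by rw [star_gu, tr_bar, one_mul, mul_one]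
  have h3 := h2 (diagonal fun i => (c i : K))
  rw [h1, h2] at h3
  funext i
  exact Subtype.ext (congrFun (diagonal_injective h3) i).symm

/-- the numbers `w^* x_i`, `x_i` the columns of `u` -/
def vv (w : Fin n → K) (u : GU K n) : Fin n → K := star w ᵥ* u.1

omit [Fintype K] in
lemma E1_mulVec (i : Fin n) (x : Fin n → K) : (E1 i : Ln K n).1 *ᵥ x = Pi.single i (x i) := by
  funext k
  rw [E1_coe, mulVec_diagonal]
  by_cases h : k = i
  · subst h; simp
  · simp [h]

omit [Fintype K] in
lemma val1 (w : Fin n → K) (u : GU K n) (i : Fin n) :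
    star w ⬝ᵥ ((lnU u (E1 i)).1 *ᵥ w) = vv w u i * star (vv w u i) := by
  rw [lnU_coe, ← mulVec_mulVec, ← mulVec_mulVec, E1_mulVec, dotProduct_mulVec]
  have h1 : star u.1 *ᵥ w = star (vv w u) := by
    rw [vv, star_vecMul, star_star, star_eq_conjTranspose]
  rw [h1, dotProduct_single]
  rfl

omit [Fintype K] in
lemma val2 (w : Fin n → K) (u : GU K n) (c : Fin n → unitary K) (i : Fin n) :
    star w ⬝ᵥ (((lnU u (E1 i)).1 * (sc u c).1) *ᵥ star w) = vv w u i * (c i : K) * vv w u i := by
  have h1 : (lnU u (E1 i)).1 * (sc u c).1 =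
      u.1 * ((E1 i : Ln K n).1 * diagonal (fun i => (c i : K)) * u.1ᵀ) := by
    rw [lnU_coe, sc_coe]
    calc _ = u.1 * (E1 i : Ln K n).1 * (star u.1 * u.1) * diagonal (fun i => (c i : K)) * u.1ᵀ := by
          simp only [mul_assoc]
      _ = _ := by rw [star_gu, mul_one]; simp only [mul_assoc]
  rw [h1, ← mulVec_mulVec, ← mulVec_mulVec, ← mulVec_mulVec, E1_mulVec, dotProduct_mulVec,
    dotProduct_single, mulVec_diagonal, mulVec_transpose]
  show vv w u i * ((c i : K) * vv w u i) = _
  ring

end forms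

section main
variable {K : Type u} [Field K] [Fintype K] [StarRing K] {n : ℕ}
variable {V : Type v} [AddCommGroup V] [Module ℚ V]

omit [Fintype K] in
lemma PR_rp (M : Ln K n → Module.End ℚ V) (l : List (Ln K n)) : PR M l = rp (l.map M) := by
  induction l with
  | nil => rfl
  | cons x l ih => rw [PR_cons, List.map_cons, rp_cons, ih]

/-- the operator of a line, as a function of the parameter -/
def Gi (M : Lt → Module.End ℚ V) (ρ : K) (w : Fin n → K) (u : GU K n) (i : Fin n)
    (c : unitary K) : Module.End ℚ V :=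
  if vv w u i * star (vv w u i) = 1 then
    (col ρ (vv w u i * (c : K) * vv w u i)).elim 0 fun j => M (lc false j)
  else if vv w u i * star (vv w u i) = -1 then
    (col ρ (vv w u i * (c : K) * vv w u i)).elim 0 fun j => M (lc true j)
  else 0

omit [Fintype K] in
lemma Gi_eq (M : Lt → Module.End ℚ V) (ρ : K) (w : Fin n → K) (u : GU K n) (c : Fin n → unitary K)
    (i : Fin n) : MO M (ltr ρ w (sc u c).1) (lnU u (E1 i)) = Gi M ρ w u i (c i) := by
  unfold MO ltr Gi
  rw [val1, val2]
  split_ifs
  · rcases col ρ (vv w u i * (c i : K) * vv w u i) with _ | j <;> rfl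
  · rcases col ρ (vv w u i * (c i : K) * vv w u i) with _ | j <;> rfl
  · rfl

omit [Fintype K] in
lemma Gi_shift (M : Lt → Module.End ℚ V) (ρ : K) (w : Fin n → K) (u : GU K n) (i : Fin n) :
    (∃ b h, ∀ c, Gi M ρ w u i c = TT K M ρ b (c * h)) ∨ ∀ c, Gi M ρ w u i c = 0 := by
  have hu : ∀ e : K, e * e = 1 → vv w u i * star (vv w u i) = e →
      vv w u i * vv w u i ∈ unitary K := by
    intro e he h
    have h1 : vv w u i * vv w u i * star (vv w u i * vv w u i) = 1 := by
      rw [star_mul]
      calc _ = (vv w u i * star (vv w u i)) * (vv w u i * star (vv w u i)) := by ring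
        _ = 1 := by rw [h, he]
    rw [Unitary.mem_iff]
    exact ⟨by rw [mul_comm]; exact h1, h1⟩
  by_cases h1 : vv w u i * star (vv w u i) = 1
  · left
    refine ⟨false, ⟨_, hu 1 (one_mul 1) h1⟩, fun c => ?_⟩
    rw [Gi, if_pos h1, TT]
    congr 2
    show _ = (c : K) * (vv w u i * vv w u i)
    ring
  by_cases h2 : vv w u i * star (vv w u i) = -1
  · left
    refine ⟨true, ⟨_, hu (-1) (by ring) h2⟩, fun c => ?_⟩
    rw [Gi, if_neg h1, if_pos h2, TT]
    congr 2
    show _ = (c : K) * (vv w u i * vv w u i)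
    ring
  · right
    intro c
    rw [Gi, if_neg h1, if_neg h2]

lemma FR_sub (s : Matrix (Fin n) (Fin n) K) : FR s ⊆ Fr K n := Finset.filter_subset _ _

lemma mem_FR {s : Matrix (Fin n) (Fin n) K} {W : List (Ln K n)} :
    W ∈ FR s ↔ W ∈ Fr K n ∧ ∀ P ∈ W, rl s P := by
  unfold FR
  rw [Finset.mem_filter]

end main

/-- **(U5b)** -/
theorem stmtU5b : StmtU5b.{u} := by
  intro K _ _ _ ρ hF n hn w S hS V _ _ M hM ℓ a
  haveI : Fintype (unitary K) := Fintype.ofFinite _
  funext W
  rw [Finset.sum_apply, Pi.zero_apply]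
  by_cases hW : W ∈ Fr K n
  swap
  · refine Finset.sum_eq_zero fun s _ => ?_
    rw [zf, if_neg fun h => hW (FR_sub _ h)]
  obtain ⟨u, rfl⟩ := exists_lnU hW
  set W := (w0 K n).map (lnU u) with hWd
  have hmem : ∀ P ∈ W, ∃ i, P = lnU u (E1 i) := by
    intro P hP
    rw [hWd, w0, List.map_ofFn, List.mem_ofFn'] at hP
    obtain ⟨i, rfl⟩ := hP
    exact ⟨i, rfl⟩
  have hmem' : ∀ i, lnU u (E1 i) ∈ W := by
    intro i
    rw [hWd, w0, List.map_ofFn, List.mem_ofFn']
    exact ⟨i, rfl⟩
  let p : unitary K → Prop := fun x => ∃ g : GU K n, g ∈ S ∧ g.1.det = u.1.det * (x : K) * u.1.det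
  have hp : ∀ c : Fin n → unitary K, sc u c ∈ S ↔ p (∏ i, c i) := by
    intro c
    constructor
    · intro h
      exact ⟨_, h, sc_det u c⟩
    · rintro ⟨g, hg, h1⟩
      exact (hS g (sc u c) (by rw [h1, sc_det])).1 hg
  have h1 : ∑ s ∈ (Finset.univ : Finset (GU K n)).filter (fun s => s ∈ S ∧ RForm s.1),
      zf M ℓ a (ltr ρ w s.1) (FR s.1) W =
      ∑ s ∈ (Finset.univ : Finset (GU K n)).filter (fun s => s ∈ S ∧ RForm s.1 ∧ W ∈ FR s.1),
        ℓ (PR (MO M (ltr ρ w s.1)) W a) := by
    rw [Finset.sum_filter, Finset.sum_filter]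
    refine Finset.sum_congr rfl fun s _ => ?_
    by_cases h2 : s ∈ S ∧ RForm s.1
    · by_cases h3 : W ∈ FR s.1
      · rw [if_pos h2, if_pos ⟨h2.1, h2.2, h3⟩, zf, if_pos h3]
      · rw [if_pos h2, if_neg fun h => h3 h.2.2, zf, if_neg h3]
    · rw [if_neg h2, if_neg fun h => h2 ⟨h.1, h.2.1⟩]
  have h2 : ∑ s ∈ (Finset.univ : Finset (GU K n)).filter (fun s => s ∈ S ∧ RForm s.1 ∧ W ∈ FR s.1),
        ℓ (PR (MO M (ltr ρ w s.1)) W a) =
      ∑ c ∈ (Finset.univ : Finset (Fin n → unitary K)).filter (fun c => p (∏ i, c i)),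
        ℓ (rp (List.ofFn fun i => Gi M ρ w u i (c i)) a) := by
    symm
    refine Finset.sum_bij (fun c _ => sc u c) ?_ ?_ ?_ ?_
    · intro c hc
      rw [Finset.mem_filter] at hc ⊢
      refine ⟨Finset.mem_univ _, (hp c).2 hc.2, sc_form u c, mem_FR.2 ⟨hW, fun P hP => ?_⟩⟩
      obtain ⟨i, rfl⟩ := hmem P hP
      exact sc_rl u c i
    · intro c _ c' _ h
      exact sc_inj u h
    · intro s hs
      rw [Finset.mem_filter] at hs
      obtain ⟨c, rfl⟩ := exists_sc u s fun i => (mem_FR.1 hs.2.2.2).2 _ (hmem' i)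
      exact ⟨c, Finset.mem_filter.2 ⟨Finset.mem_univ _, (hp c).1 hs.2.1⟩, rfl⟩
    · intro c _
      rw [PR_rp]
      congr 3
      rw [hWd, w0, List.map_ofFn, List.map_ofFn]
      congr 1
      funext i
      exact (Gi_eq M ρ w u c i).symm
  have h3 := abs_sum (TT_rel hM ρ) hn (fun i => Gi_shift M ρ w u i) p
  rw [h1, h2, ← map_sum, ← LinearMap.sum_apply]
  have h4 : ∑ c ∈ (Finset.univ : Finset (Fin n → unitary K)).filter (fun c => p (∏ i, c i)),
      rp (List.ofFn fun i => Gi M ρ w u i (c i)) = 0 := by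
    convert h3
  rw [h4, LinearMap.zero_apply, map_zero]

end

end Vale.Agent.P240.R2.H315
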