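import Vale.Agent.P240.R2.H584.Sol
import Vale.Agent.P240.R2.H38.V2

/-!
`PSU_n(5)`, `n` even, `p = 2`: real forms of the hermitian space over the field with `25` elements,
the letters of the real lines.
-/

set_option autoImplicit false
set_option linter.all false

namespace Vale.Agent.P240.R2.H315

open Matrix Vale.Agent.P240.R2.AS Vale.Agent.P240.R2.H38 Vale.Agent.P240.R2.H584
open scoped Classical

universe u

noncomputable section

section
variable {K : Type u} [Field K] [Fintype K] [StarRing K] {n : ℕ}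

/-- the field with `25` elements, `ρ` a primitive sixth root of unity -/
structure F25 (K : Type u) [Field K] [Fintype K] [StarRing K] (ρ : K) : Prop where
  card : Nat.card K = 5 ^ 2
  star : ∀ x : K, star x = x ^ 5
  rho : ρ * ρ = ρ - 1

/-- `x ↦ s (star x)` is an involution -/
def RForm (s : Matrix (Fin n) (Fin n) K) : Prop := s * s.map star = 1

/-- the line `P` is fixed by `x ↦ s (star x)` -/
def rl (s : Matrix (Fin n) (Fin n) K) (P : Ln K n) : Prop := s * P.1.map star * star s = P.1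

/-- the frames of fixed lines -/
def FR (s : Matrix (Fin n) (Fin n) K) : Finset (List (Ln K n)) :=
  (Fr K n).filter fun w => ∀ P ∈ w, rl s P

/-- the colour of a number -/
def col (ρ u : K) : Option (Fin 3) :=
  if u = 1 then some 0 else if u = ρ then some 1 else if u = ρ * ρ then some 2 else none

/-- the letters `e_j` (`b = false`: types `f, t, f`) and `f_j` (`b = true`: types `t, f, t`) -/
def lc (b : Bool) (j : Fin 3) : Lt := (xor b (decide (j = 1)), j)

/-- the letter of a fixed line: `P = x (star x)`, `s (star x) = c x` gives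
`star w ⬝ᵥ (P *ᵥ w) = N (star w ⬝ᵥ x)`, `star w ⬝ᵥ ((P * s) *ᵥ star w) = c (star w ⬝ᵥ x) ^ 2` -/
def ltr (ρ : K) (w : Fin n → K) (s : Matrix (Fin n) (Fin n) K) (P : Ln K n) : Option Lt :=
  if star w ⬝ᵥ (P.1 *ᵥ w) = 1 then (col ρ (star w ⬝ᵥ ((P.1 * s) *ᵥ star w))).map (lc false)
  else if star w ⬝ᵥ (P.1 *ᵥ w) = -1 then (col ρ (star w ⬝ᵥ ((P.1 * s) *ᵥ star w))).map (lc true)
  else none

end

/-- **(U5a)** the plane condition -/
def StmtU5a : Prop :=
  ∀ (K : Type u) [Field K] [Fintype K] [StarRing K] (ρ : K), F25 K ρ →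
    ∀ (n : ℕ) (w : Fin n → K) (s : Matrix (Fin n) (Fin n) K), s ∈ unitaryGroup (Fin n) K →
      RForm s → PlaneC (FR s) (ltr ρ w s)

/-- **(U5b)** the sum over all forms with restricted determinant is zero -/
def StmtU5b : Prop :=
  ∀ (K : Type u) [Field K] [Fintype K] [StarRing K] (ρ : K), F25 K ρ →
    ∀ (n : ℕ), 3 ≤ n → ∀ (w : Fin n → K) (S : Subgroup (GU K n)),
    (∀ g g' : GU K n, g.1.det = g'.1.det → (g ∈ S ↔ g' ∈ S)) →
    ∀ (V : Type) [AddCommGroup V] [Module ℚ V] (M : Lt → Module.End ℚ V), Rep M →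
    ∀ (ℓ : V →ₗ[ℚ] ℚ) (a : V),
      ∑ s ∈ (Finset.univ : Finset (GU K n)).filter (fun s => s ∈ S ∧ RForm s.1),
        zf M ℓ a (ltr ρ w s.1) (FR s.1) = 0

end

end Vale.Agent.P240.R2.H315
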